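import Vale.Agent.P129.Criterion

namespace Vale.Agent.Results.P129.RestrictionCriterion

open TopologicalSpace

set_option maxSynthPendingDepth 3

theorem result (𝕜 : Type*) [RCLike 𝕜] (X : Type*) [NormedAddCommGroup X] [NormedSpace 𝕜 X]
    [CompleteSpace X] :
    ((∃ M : Submodule 𝕜 X, IsClosed (M : Set X) ∧ ¬ FiniteDimensional 𝕜 (X ⧸ M) ∧
        SeparableSpace (X ⧸ M)) ↔
      ∃ W : Submodule 𝕜 (StrongDual 𝕜 X), ¬ FiniteDimensional 𝕜 W ∧
        IsSeparable (Set.range fun x : X => (ContinuousLinearMap.apply 𝕜 𝕜 x).comp W.subtypeL)) ∧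
    ((∃ W : Submodule 𝕜 (StrongDual 𝕜 X), ¬ FiniteDimensional 𝕜 W ∧
        SeparableSpace (StrongDual 𝕜 W)) →
      ∃ M : Submodule 𝕜 X, IsClosed (M : Set X) ∧ ¬ FiniteDimensional 𝕜 (X ⧸ M) ∧
        SeparableSpace (X ⧸ M)) := by
  refine ⟨⟨?_, ?_⟩, ?_⟩
  · rintro ⟨M, hc, hinf, hsep⟩
    exact Vale.Agent.P129.restriction_of_quotient M hc hinf hsep
  · rintro ⟨W, hW, hsep⟩
    exact Vale.Agent.P129.quotient_of_restriction W hW hsep
  · rintro ⟨W, hW, hsep⟩
    haveI := hsep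
    exact Vale.Agent.P129.quotient_of_restriction W hW (IsSeparable.of_separableSpace _)

end Vale.Agent.Results.P129.RestrictionCriterion
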